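import Mathlib
import Vale.Agent.Lib.P090.Defs

/-!
Pool job P090-C (backup copy, seat helper19): a metric space with its metric multiplied by the
exponential of a real number, with the two Lipschitz identity maps.
-/

namespace Vale.Agent.Lib.P090.H19

open Vale.Agent.Lib.P090
open scoped NNReal ENNReal

universe u

/-- M with its metric multiplied by Real.exp t. -/
def Scaled (_t : ℝ) (M : Type u) : Type u := M

variable {M : Type u}

def toScaled (t : ℝ) (x : M) : Scaled t M := x

def ofScaled (t : ℝ) (x : Scaled t M) : M := x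

theorem ofScaled_toScaled (t : ℝ) (x : M) : ofScaled t (toScaled t x) = x := rfl

variable [MetricSpace M]

noncomputable instance instMetricSpaceScaled (t : ℝ) : MetricSpace (Scaled t M) where
  dist x y := Real.exp t * dist (ofScaled t x) (ofScaled t y)
  dist_self x := by
    rw [dist_self, mul_zero]
  dist_comm x y := by
    rw [dist_comm]
  dist_triangle x y z := by
    rw [← mul_add]
    exact mul_le_mul_of_nonneg_left (dist_triangle _ _ _) (Real.exp_pos t).le
  eq_of_dist_eq_zero := by
    intro x y h
    have h' : Real.exp t * dist (ofScaled t x) (ofScaled t y) = 0 := h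
    rcases mul_eq_zero.mp h' with h1 | h1
    · exact absurd h1 (Real.exp_pos t).ne'
    · have h2 : ofScaled t x = ofScaled t y := dist_eq_zero.mp h1
      exact h2

theorem dist_scaled (t : ℝ) (x y : Scaled t M) :
    dist x y = Real.exp t * dist (ofScaled t x) (ofScaled t y) := rfl

theorem toScaled_lipschitz (t : ℝ) :
    LipschitzWith (Real.toNNReal (Real.exp t)) (toScaled t : M → Scaled t M) := by
  refine LipschitzWith.of_dist_le_mul (fun x y => ?_)
  rw [Real.coe_toNNReal _ (Real.exp_pos t).le, dist_scaled, ofScaled_toScaled,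
    ofScaled_toScaled]

theorem ofScaled_lipschitz (t : ℝ) :
    LipschitzWith (Real.toNNReal (Real.exp (-t))) (ofScaled t : Scaled t M → M) := by
  refine LipschitzWith.of_dist_le_mul (fun x y => ?_)
  rw [Real.coe_toNNReal _ (Real.exp_pos _).le, dist_scaled, ← mul_assoc, ← Real.exp_add,
    neg_add_cancel, Real.exp_zero, one_mul]

theorem scaled_separated (θ : ℝ) (hθ : 0 < θ) (h : ∀ x y : M, x ≠ y → θ ≤ dist x y) :
    ∀ x y : Scaled (-Real.log θ) M, x ≠ y → 1 ≤ dist x y := by
  intro x y hxy
  have h1 : θ ≤ dist (ofScaled (-Real.log θ) x) (ofScaled (-Real.log θ) y) := h _ _ hxy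
  rw [dist_scaled, Real.exp_neg, Real.exp_log hθ, ← div_eq_inv_mul, le_div_iff₀ hθ, one_mul]
  exact h1

end Vale.Agent.Lib.P090.H19
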